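import Vale.Agent.P354.H251.Gen

open Set Filter Topology

namespace Vale.Agent.Results.P354.VacuumGeneric

open Vale.Agent.P354n
open Vale.Agent.P354v.T.N (inext2)
open Vale.Agent.P354v.G.N (generic wave_spacetime wave_vacuum wave_gh ext_one wave_iff)

/-- Let M be a smooth time oriented spacetime and 2 ≤ p ≤ ∞. (1) No future extension of class C^0
and W^{1,p}_loc goes through an end of M which is a weak null singularity, a corner of two of them,
or far away. (2) If every future timelike curve without end point ends so, there is no such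
extension. (3) If M is not empty and all future and all past timelike curves without end point end
so, M is not a proper open part of a connected spacetime of class C^0 and W^{1,p}_loc.
(4) The plane wave of f is a globally hyperbolic vacuum spacetime with a future extension of class
C^0 and W^{1,1}_loc; it has one of class C^0 and W^{1,p}_loc if and only if f is in L^p near v = 0.
(5) In every space E of such functions f, for all f outside of a meagre subset of E, the plane wave
of f is a maximal globally hyperbolic vacuum development, which is not a proper open part of a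
connected spacetime of class C^0 and W^{1,p}_loc. -/
theorem result (p : ENNReal) (hp : 2 ≤ p) :
    (∀ M, IsSpacetime IsSmooth M → (∀ N ι c a, IsFutureExtension (IsC0W1 p) M N ι c →
      (∀ t ∈ Ico (0 : ℝ) 1, ι (a t) = c t) → ¬ Ends p M a) ∧
      (AllEnd p M → ∀ N ι c, ¬ IsFutureExtension (IsC0W1 p) M N ι c) ∧
      (Nonempty M.pt → AllEnd p M → AllEnd p (rev M) → IsInext (IsC0W1 p) M)) ∧
    (∀ f, IsData f → IsSpacetime IsSmooth (wave f) ∧ IsVacuum (wave f) ∧ IsGH (wave f) ∧
      (∃ N ι c, ConnectedSpace N.pt ∧ IsFutureExtension (IsC0W1 1) (wave f) N ι c) ∧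
      ((∃ N ι c, IsFutureExtension (IsC0W1 p) (wave f) N ι c) ↔ InLp p f (-(1 / 2)))) ∧
    ∀ (E : Type) [AddCommGroup E] [Module ℝ E] [TopologicalSpace E] (T : E →ₗ[ℝ] ℝ → ℝ),
      IsDataSpace p T → IsMeagre {x | ¬ (IsMax (wave (T x)) ∧ IsInext (IsC0W1 p) (wave (T x)))} := by
  refine ⟨fun M hM => ⟨((inext p hp).1 M hM).1, ((inext p hp).1 M hM).2, fun h0 h1 h2 =>
    inext2 hp hM h0 h1 h2⟩, fun f hf => ⟨wave_spacetime hf, wave_vacuum hf, wave_gh hf, ext_one hf,
      wave_iff hf hp⟩, ?_⟩
  intro E _ _ _ T ⟨_, _, _, h1, h2, h3⟩
  exact generic hp T h1 h2 h3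

end Vale.Agent.Results.P354.VacuumGeneric
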