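import Vale.Agent.P354.H251.Inx

open Set Filter Topology

namespace Vale.Agent.Results.P354.VacuumMaximal

open Vale.Agent.P354n
open Vale.Agent.P354v.T.N (inext2 inext3)

/-- Let M be a smooth time oriented spacetime and 2 ≤ p ≤ ∞. (1) No future extension of class C^0
and W^{1,p}_loc goes through an end of M which is a weak null singularity, a corner of two of them,
or far away. (2) If every future timelike curve without end point ends so, there is no such
extension. (3) If M is not empty and all future and all past timelike curves without end point end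
so, M is not a proper open part of a connected spacetime of class C^0 and W^{1,p}_loc. (4) Some M
as in (3), which is the maximal globally hyperbolic vacuum development of its data, has a connected
future extension of class C^0 and W^{1,q}_loc for all q < p. -/
theorem result (p : ENNReal) (hp : 2 ≤ p) :
    (∀ M, IsSpacetime IsSmooth M → (∀ N ι c a, IsFutureExtension (IsC0W1 p) M N ι c →
      (∀ t ∈ Ico (0 : ℝ) 1, ι (a t) = c t) → ¬ Ends p M a) ∧
      (AllEnd p M → ∀ N ι c, ¬ IsFutureExtension (IsC0W1 p) M N ι c) ∧
      (Nonempty M.pt → AllEnd p M → AllEnd p (rev M) → IsInext (IsC0W1 p) M)) ∧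
    ∃ M N ι c, IsMax M ∧ AllEnd p M ∧ AllEnd p (rev M) ∧ ConnectedSpace N.pt ∧
      ∀ q < p, IsFutureExtension (IsC0W1 q) M N ι c := by
  refine ⟨fun M hM => ⟨((inext p hp).1 M hM).1, ((inext p hp).1 M hM).2, fun h0 h1 h2 =>
    inext2 hp hM h0 h1 h2⟩, ?_⟩
  obtain ⟨M, N, ι, c, h1, h2, h3, h4, h5, h6, h7, h8⟩ := Vale.Agent.P354v.T.N.sharp hp
  exact ⟨M, N, ι, c, ⟨h1, h6, h2, h3, inext3 (inext2 hp h1 inferInstance h4 h5)⟩, h4, h5, h7, h8⟩

end Vale.Agent.Results.P354.VacuumMaximal
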